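import Vale.Agent.Helper24.P314Formula

/-!
# P314: hitting sets for noncommutative formulas need growing matrix dimension

For every field `F`, every `n ≥ 2` and every `d`: if `s ≥ (d+1)! (d+3)^2`, then every hitting
set for the class `F_{n,s}(F)` of polynomials computed by noncommutative formulas of size at
most `s` contains a matrix tuple of dimension larger than `d`.

The witness is the identity of algebraicity
`∑_σ sgn(σ) x^{σ(0)} y x^{σ(1)} y ... x^{σ(d)} y` (sum over permutations of `{0, ..., d}`):
it is a nonzero polynomial, it has a formula of size at most `(d+1)! (d+3)^2`, and it vanishes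
on all `k × k` matrices with `k ≤ d` because `1, X, ..., X^d` are linearly dependent
(Cayley-Hamilton) and the sum is alternating in the powers of `X`.
-/

namespace Vale.Agent.Results.P314.DimensionGrowth

open Vale.Agent.Helper24.P314

theorem result (F : Type) [Field F] (d n s : ℕ) (hn : 2 ≤ n)
    (hs : (d + 1).factorial * (d + 3) ^ 2 ≤ s)
    (H : Set (Σ k : ℕ, Fin n → Matrix (Fin k) (Fin k) F))
    (hH : IsHittingSet F n s H) :
    ∃ T ∈ H, d < T.1 := by
  have hxy : (⟨0, by omega⟩ : Fin n) ≠ ⟨1, by omega⟩ := by
    intro h
    exact absurd (congrArg Fin.val h) (by simp)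
  obtain ⟨T, hT, hne⟩ := hH.2 (algId F d ⟨0, by omega⟩ ⟨1, by omega⟩)
    (algId_mem_formulaClass F d s _ _ hs) (algId_ne_zero F d hxy)
  refine ⟨T, hT, ?_⟩
  by_contra hle
  exact hne (evalMat_algId F (Nat.le_of_not_lt hle) T.2 _ _)

end Vale.Agent.Results.P314.DimensionGrowth
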