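import Mathlib
import Vale.Agent.Helper24.P314Formula

/-!
P314 (black-box identity testing for noncommutative formulas), plain form of
`P314.DimensionGrowth`, with no definition of ours in the statement.

The class of polynomials computed by formulas is described by its closure rules: `C a` is any
family of sets of noncommutative polynomials (elements of the free algebra
`F⟨x_0, …, x_{n-1}⟩`) such that every variable and every scalar lies in `C 1`, and `f + g` and
`f * g` lie in `C (a + b + 1)` whenever `f` lies in `C a` and `g` lies in `C b`.  Every such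
family contains, in `C a`, each polynomial computed by a formula with exactly `a` vertices;
the least such family consists of exactly these polynomials.  Matrix evaluation is
`FreeAlgebra.lift`.

Theorem: if `n ≥ 2`, `s ≥ (d+1)! (d+3)^2`, and `H` is a set of matrix tuples such that every
nonzero `f` in `C a`, `a ≤ s`, is nonzero at some tuple of `H`, then `H` contains a tuple of
matrices of dimension larger than `d`.
-/

namespace Vale.Agent.Results.P314.DimensionGrowthPlain

open Vale.Agent.Helper24.P314

theorem result (F : Type) [Field F] (d n s : ℕ) (hn : 2 ≤ n)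
    (hs : (d + 1).factorial * (d + 3) ^ 2 ≤ s)
    (C : ℕ → Set (FreeAlgebra F (Fin n)))
    (hvar : ∀ i : Fin n, FreeAlgebra.ι F i ∈ C 1)
    (hconst : ∀ c : F, algebraMap F (FreeAlgebra F (Fin n)) c ∈ C 1)
    (hadd : ∀ (a b : ℕ) (f g : FreeAlgebra F (Fin n)),
      f ∈ C a → g ∈ C b → f + g ∈ C (a + b + 1))
    (hmul : ∀ (a b : ℕ) (f g : FreeAlgebra F (Fin n)),
      f ∈ C a → g ∈ C b → f * g ∈ C (a + b + 1))
    (H : Set (Σ k : ℕ, Fin n → Matrix (Fin k) (Fin k) F))
    (hH : ∀ a : ℕ, a ≤ s → ∀ f ∈ C a, f ≠ 0 → ∃ T ∈ H, FreeAlgebra.lift F T.2 f ≠ 0) :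
    ∃ T ∈ H, d < T.1 := by
  have hxy : (⟨0, by omega⟩ : Fin n) ≠ ⟨1, by omega⟩ := by
    intro h
    exact absurd (congrArg Fin.val h) (by simp)
  have hmem : ∀ φ : NCFormula F n, φ.toPoly ∈ C φ.size := by
    intro φ
    induction φ with
    | var i => exact hvar i
    | const c => exact hconst c
    | add φ ψ ihφ ihψ => exact hadd _ _ _ _ ihφ ihψ
    | mul φ ψ ihφ ihψ => exact hmul _ _ _ _ ihφ ihψ
  obtain ⟨φ, hφs, hφ⟩ :=
    algId_mem_formulaClass F d s (⟨0, by omega⟩ : Fin n) ⟨1, by omega⟩ hs
  have hne : φ.toPoly ≠ 0 := by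
    rw [hφ]
    exact algId_ne_zero F d hxy
  obtain ⟨T, hT, hTne⟩ := hH φ.size hφs φ.toPoly (hmem φ) hne
  refine ⟨T, hT, ?_⟩
  by_contra hle
  apply hTne
  rw [hφ]
  exact evalMat_algId F (Nat.le_of_not_lt hle) T.2 _ _

end Vale.Agent.Results.P314.DimensionGrowthPlain
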